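import Vale.Agent.P229.Interfaces

/-!
P229: two smooth functions whose Taylor data agree up to `ε` at a nearby point are close.
-/

namespace Vale.Agent.P229.Keys

/-- A unit vector of the plane. -/
def vec : Bool → P2
  | true => (1, 0)
  | false => (0, 1)

/-- A multilinear map on the plane is controlled by its values on the coordinate tuples. -/
lemma norm_le_coord {k : ℕ} (M : P2 [×k]→L[ℝ] ℝ) {ε : ℝ} (hε : 0 ≤ ε)
    (h : ∀ b : Fin k → Bool, |M (fun i => vec (b i))| ≤ ε) : ‖M‖ ≤ 2 ^ k * ε := by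
  refine ContinuousMultilinearMap.opNorm_le_bound (by positivity) fun v => ?_
  let co : Fin k → Bool → ℝ := fun i b => bif b then (v i).1 else (v i).2
  have hv : v = fun i => ∑ b : Bool, co i b • vec b := by
    funext i
    simp [co, vec]
  have hM : M v = ∑ b : Fin k → Bool, (∏ i, co i (b i)) • M (fun i => vec (b i)) := by
    conv_lhs => rw [hv, M.map_sum]
    exact Finset.sum_congr rfl fun b _ => M.map_smul_univ _ _
  have hc : ∀ i b, |co i b| ≤ ‖v i‖ := by
    intro i b
    cases b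
    · exact norm_snd_le (v i)
    · exact norm_fst_le (v i)
  rw [Real.norm_eq_abs, hM]
  refine le_trans (Finset.abs_sum_le_sum_abs _ _) ?_
  calc ∑ b : Fin k → Bool, |(∏ i, co i (b i)) • M (fun i => vec (b i))|
      ≤ ∑ _b : Fin k → Bool, (∏ i, ‖v i‖) * ε := by
        refine Finset.sum_le_sum fun b _ => ?_
        rw [smul_eq_mul, abs_mul, Finset.abs_prod]
        exact mul_le_mul (Finset.prod_le_prod (fun i _ => abs_nonneg _) fun i _ => hc i _) (h b)
          (abs_nonneg _) (Finset.prod_nonneg fun i _ => norm_nonneg _)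
    _ = 2 ^ k * ε * ∏ i, ‖v i‖ := by
        simp [Finset.sum_const, nsmul_eq_mul]
        ring

/-- Descending mean value inequality. -/
lemma iter_le {g : P2 → ℝ} {x₀ : P2} {η ε B : ℝ} {N : ℕ} (hη : 0 < η) (hη1 : η ≤ 1)
    (hε : 0 ≤ ε) (hg : ∀ x ∈ Metric.closedBall x₀ η, ContDiffAt ℝ (⊤ : ℕ∞) g x)
    (hB : ∀ x ∈ Metric.closedBall x₀ η, ‖iteratedFDeriv ℝ N g x‖ ≤ B)
    (h0 : ∀ k < N, ‖iteratedFDeriv ℝ k g x₀‖ ≤ ε) :
    ∀ m k : ℕ, k + m = N →
      ∀ x ∈ Metric.closedBall x₀ η, ‖iteratedFDeriv ℝ k g x‖ ≤ m * ε + η ^ m * B := by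
  intro m
  induction m with
  | zero => intro k hk x hx; simp at hk; subst hk; simpa using hB x hx
  | succ m ih =>
    intro k hk x hx
    have hd : ∀ y ∈ Metric.closedBall x₀ η, DifferentiableAt ℝ (iteratedFDeriv ℝ k g) y :=
      fun y hy => (hg y hy).differentiableAt_iteratedFDeriv
        (by exact_mod_cast WithTop.coe_lt_top k)
    have hb : ∀ y ∈ Metric.closedBall x₀ η,
        ‖fderiv ℝ (iteratedFDeriv ℝ k g) y‖ ≤ m * ε + η ^ m * B := fun y hy => by
      rw [norm_fderiv_iteratedFDeriv]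
      exact ih (k + 1) (by omega) y hy
    have hx0 : x₀ ∈ Metric.closedBall x₀ η := Metric.mem_closedBall_self hη.le
    have h1 := (convex_closedBall x₀ η).norm_image_sub_le_of_norm_fderiv_le hd hb hx0 hx
    have hB0 : 0 ≤ B := le_trans (norm_nonneg _) (hB x₀ hx0)
    have hC : 0 ≤ m * ε + η ^ m * B := by positivity
    have hxd : ‖x - x₀‖ ≤ η := by rwa [← dist_eq_norm]
    have h2 : ‖iteratedFDeriv ℝ k g x‖ ≤ ε + (m * ε + η ^ m * B) * η := by
      have := norm_le_norm_add_norm_sub' (iteratedFDeriv ℝ k g x) (iteratedFDeriv ℝ k g x₀)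
      have := h0 k (by omega)
      have := h1.trans (mul_le_mul_of_nonneg_left hxd hC)
      linarith
    refine h2.trans ?_
    have hmε : (m : ℝ) * ε * η ≤ m * ε := mul_le_of_le_one_right (by positivity) hη1
    push_cast
    ring_nf
    linarith

end Vale.Agent.P229.Keys
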