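import Vale.Agent.P229.Keys.Close

/-!
P229 seat E: few keys for uniformly smooth families on an annulus.
-/

namespace Vale.Agent.P229.Keys

/-- Quantised value. -/
noncomputable def code (ε : ℝ) (L : ℕ) (v : ℝ) : Fin (2 * L + 1) :=
  ⟨min (2 * L) (⌊v / ε⌋ + (L : ℤ)).toNat, by omega⟩

lemma code_close {ε v w : ℝ} {L : ℕ} (hε : 0 < ε) (hv : |v| ≤ L * ε) (hw : |w| ≤ L * ε)
    (h : code ε L v = code ε L w) : |v - w| ≤ ε := by
  have bd : ∀ u : ℝ, |u| ≤ L * ε → -(L : ℤ) ≤ ⌊u / ε⌋ ∧ ⌊u / ε⌋ ≤ (L : ℤ) := by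
    intro u hu
    obtain ⟨h1, h2⟩ := abs_le.1 hu
    constructor
    · rw [Int.le_floor, le_div_iff₀ hε]; push_cast; linarith
    · have : ⌊u / ε⌋ ≤ ⌊(L : ℝ)⌋ := Int.floor_le_floor ((div_le_iff₀ hε).2 h2)
      simpa using this
  have hvL := bd v hv
  have hwL := bd w hw
  have he : (⌊v / ε⌋ + (L : ℤ)).toNat = (⌊w / ε⌋ + (L : ℤ)).toNat := by
    have := congrArg Fin.val h
    simp only [code] at this
    omega
  have hf : ⌊v / ε⌋ = ⌊w / ε⌋ := by omega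
  have := Int.abs_sub_lt_one_of_floor_eq_floor hf
  rw [← sub_div, abs_div, abs_of_pos hε, div_lt_one hε] at this
  exact this.le

/-- The node of index `a` of the grid of mesh `η`. -/
noncomputable def node (η : ℝ) (M : ℕ) (a : Fin (2 * M + 1) × Fin (2 * M + 1)) : P2 :=
  (η * ((a.1 : ℕ) - (M : ℝ)), η * ((a.2 : ℕ) - (M : ℝ)))

lemma exists_idx {η v : ℝ} {M : ℕ} (hη : 0 < η) (hv : |v| ≤ M * η) :
    ∃ a : Fin (2 * M + 1), |v - η * ((a : ℕ) - (M : ℝ))| ≤ η := by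
  obtain ⟨h1, h2⟩ := abs_le.1 hv
  have h0 : 0 ≤ v / η + M := by
    have : -(M : ℝ) ≤ v / η := by rw [le_div_iff₀ hη]; linarith
    linarith
  have hle : v / η + M ≤ ((2 * M : ℕ) : ℝ) := by
    have : v / η ≤ M := by rw [div_le_iff₀ hη]; linarith
    push_cast
    linarith
  refine ⟨⟨⌊v / η + M⌋₊, Nat.lt_succ_of_le (Nat.floor_le_of_le hle)⟩, ?_⟩
  have a1 := Nat.floor_le h0
  have a2 := Nat.lt_floor_add_one (v / η + M)
  have e : v - η * ((⌊v / η + M⌋₊ : ℝ) - M) = η * (v / η + M - ⌊v / η + M⌋₊) := by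
    field_simp
    ring
  rw [e, abs_mul, abs_of_pos hη, abs_of_nonneg (by linarith)]
  exact mul_le_of_le_one_right hη.le (by linarith)

/-- Points near the closed annulus stay in the open one. -/
lemma ball_mem {r s s' r' η : ℝ} {x z y : P2} (hx : x ∈ Ann s s') (hη : 0 < η)
    (hη1 : η ≤ 1) (hs : 0 < s) (h1 : 16 * η * (s' + 2) ≤ s - r) (h2 : 16 * η * (s' + 2) ≤ r' - s')
    (hxz : |x.1 - z.1| ≤ η ∧ |x.2 - z.2| ≤ η) (hy : y ∈ Metric.closedBall z η) :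
    y ∈ interior (Ann r r') := by
  have hx' : s ≤ x.1 ^ 2 + x.2 ^ 2 ∧ x.1 ^ 2 + x.2 ^ 2 ≤ s' := hx
  rw [Metric.mem_closedBall, Prod.dist_eq, max_le_iff, Real.dist_eq, Real.dist_eq] at hy
  have sub : {q : P2 | r < rsq q ∧ rsq q < r'} ⊆ interior (Ann r r') := by
    refine interior_maximal (fun q hq => ⟨hq.1.le, hq.2.le⟩) ?_
    have hc : Continuous rsq := by unfold rsq; fun_prop
    exact (isOpen_Ioi.preimage hc).inter (isOpen_Iio.preimage hc)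
  refine sub ?_
  have e1 : |y.1 - x.1| ≤ 2 * η := by
    have := abs_sub_le y.1 z.1 x.1
    rw [abs_sub_comm z.1 x.1] at this
    linarith [hy.1, hxz.1]
  have e2 : |y.2 - x.2| ≤ 2 * η := by
    have := abs_sub_le y.2 z.2 x.2
    rw [abs_sub_comm z.2 x.2] at this
    linarith [hy.2, hxz.2]
  have b1 : |x.1| ≤ s' + 1 := abs_le.2 ⟨by nlinarith [sq_nonneg (x.1 + 1), sq_nonneg x.2],
    by nlinarith [sq_nonneg (x.1 - 1), sq_nonneg x.2]⟩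
  have b2 : |x.2| ≤ s' + 1 := abs_le.2 ⟨by nlinarith [sq_nonneg (x.2 + 1), sq_nonneg x.1],
    by nlinarith [sq_nonneg (x.2 - 1), sq_nonneg x.1]⟩
  have diff : ∀ u v : ℝ, |v - u| ≤ 2 * η → |u| ≤ s' + 1 → |v ^ 2 - u ^ 2| < 8 * η * (s' + 2) := by
    intro u v hvu hu
    have hp : |v + u| ≤ 2 * (s' + 1) + 2 * η := by
      calc |v + u| = |(v - u) + 2 * u| := by ring_nf
        _ ≤ |v - u| + |2 * u| := abs_add_le _ _
        _ ≤ _ := by rw [abs_mul, abs_two]; linarith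
    have hs' : 0 < s' + 2 := by nlinarith
    calc |v ^ 2 - u ^ 2| = |v - u| * |v + u| := by rw [← abs_mul]; ring_nf
      _ ≤ 2 * η * (2 * (s' + 1) + 2 * η) := by gcongr
      _ < 8 * η * (s' + 2) := by nlinarith
  have d1' := abs_lt.1 (diff x.1 y.1 e1 b1)
  have d2' := abs_lt.1 (diff x.2 y.2 e2 b2)
  show r < y.1 ^ 2 + y.2 ^ 2 ∧ y.1 ^ 2 + y.2 ^ 2 < r'
  constructor <;> linarith

/-- The pigeonhole set of keys is small. -/
lemma count {p δ u c₁ c₂ A' C' : ℝ} (T : ℕ) (hp : 0 < p) (hδ : 0 < δ) (hδ1 : δ < 1) (hu : 0 < u)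
    (hu1 : u ≤ 1) (hc₁ : 0 < c₁) (hc₂ : 0 < c₂) (hA : 0 < A') (hC : 0 < C') :
    ((2 * ⌈C' / (c₂ * δ)⌉₊ + 1 : ℕ) : ℝ) ^
        (T * ((2 * ⌈A' / (c₁ * u)⌉₊ + 1) * (2 * ⌈A' / (c₁ * u)⌉₊ + 1))) ≤
      Real.exp ((2 * (A' / c₁) + 5) ^ 2 * T * ((2 * (C' / c₂) + 5) ^ p / p) *
        ((u ^ 2)⁻¹ * δ ^ (-p))) := by
  have h1 : ((2 * ⌈A' / (c₁ * u)⌉₊ + 1 : ℕ) : ℝ) ≤ (2 * (A' / c₁) + 5) / u := by
    have := Nat.ceil_lt_add_one (a := A' / (c₁ * u)) (by positivity)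
    have h3 : (1 : ℝ) ≤ 1 / u := by rw [le_div_iff₀ hu]; linarith
    have h4 : (2 * (A' / c₁) + 5) / u = 2 * (A' / (c₁ * u)) + 5 * (1 / u) := by ring
    push_cast
    linarith
  have h2 : ((2 * ⌈C' / (c₂ * δ)⌉₊ + 1 : ℕ) : ℝ) ≤ (2 * (C' / c₂) + 5) / δ := by
    have := Nat.ceil_lt_add_one (a := C' / (c₂ * δ)) (by positivity)
    have h3 : (1 : ℝ) ≤ 1 / δ := by rw [le_div_iff₀ hδ]; linarith
    have h4 : (2 * (C' / c₂) + 5) / δ = 2 * (C' / (c₂ * δ)) + 5 * (1 / δ) := by ring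
    push_cast
    linarith
  have hB : 0 < 2 * (C' / c₂) + 5 := by positivity
  have hl0 : 0 ≤ Real.log ((2 * ⌈C' / (c₂ * δ)⌉₊ + 1 : ℕ) : ℝ) := Real.log_natCast_nonneg _
  have hlog : Real.log ((2 * ⌈C' / (c₂ * δ)⌉₊ + 1 : ℕ) : ℝ) ≤
      (2 * (C' / c₂) + 5) ^ p / p * δ ^ (-p) := by
    refine ((Real.log_le_log (by positivity) h2).trans
      (Real.log_le_rpow_div (by positivity) hp)).trans_eq ?_
    rw [Real.div_rpow hB.le hδ.le, Real.rpow_neg hδ.le]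
    ring
  rw [← Real.exp_log (show (0 : ℝ) < ((2 * ⌈C' / (c₂ * δ)⌉₊ + 1 : ℕ) : ℝ) by positivity),
    ← Real.exp_nat_mul]
  refine Real.exp_le_exp.2 ?_
  rw [Nat.cast_mul, Nat.cast_mul]
  calc (T : ℝ) * (((2 * ⌈A' / (c₁ * u)⌉₊ + 1 : ℕ) : ℝ) * ((2 * ⌈A' / (c₁ * u)⌉₊ + 1 : ℕ) : ℝ)) *
        Real.log ((2 * ⌈C' / (c₂ * δ)⌉₊ + 1 : ℕ) : ℝ)
      ≤ (T : ℝ) * (((2 * (A' / c₁) + 5) / u) * ((2 * (A' / c₁) + 5) / u)) *
        ((2 * (C' / c₂) + 5) ^ p / p * δ ^ (-p)) := by gcongr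
    _ = _ := by ring

/-- Equal keys at a node force closeness on its cell. -/
lemma close {f g : P2 → ℝ} {z x : P2} {η δ C' : ℝ} {N L : ℕ} (hN : 2 ≤ N) (hη : 0 < η)
    (hη1 : η ≤ 1) (hδ : 0 < δ) (hC : 0 < C') (hηN : η ^ (N - 1) ≤ δ / (4 * C'))
    (hL : C' ≤ L * (1 / (2 * N * 2 ^ N) * δ))
    (hf : ∀ y ∈ Metric.closedBall z η, ContDiffAt ℝ (⊤ : ℕ∞) f y)
    (hg : ∀ y ∈ Metric.closedBall z η, ContDiffAt ℝ (⊤ : ℕ∞) g y)
    (hfb : ∀ y ∈ Metric.closedBall z η, ∀ l ≤ N, ‖iteratedFDeriv ℝ l f y‖ ≤ C')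
    (hgb : ∀ y ∈ Metric.closedBall z η, ∀ l ≤ N, ‖iteratedFDeriv ℝ l g y‖ ≤ C')
    (hkey : ∀ (l : Fin N) (b : Fin (l : ℕ) → Bool),
      code (1 / (2 * N * 2 ^ N) * δ) L (iteratedFDeriv ℝ (l : ℕ) f z fun m => vec (b m)) =
        code (1 / (2 * N * 2 ^ N) * δ) L (iteratedFDeriv ℝ (l : ℕ) g z fun m => vec (b m)))
    (hx : x ∈ Metric.closedBall z η) :
    |f x - g x| ≤ δ ∧ |d1 f x - d1 g x| ≤ δ ∧ |d2 f x - d2 g x| ≤ δ := by
  set ε : ℝ := 1 / (2 * N * 2 ^ N) * δ with hεd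
  have hε : 0 < ε := by
    have : (0 : ℝ) < N := by exact_mod_cast (by omega : 0 < N)
    rw [hεd]
    positivity
  have hz : z ∈ Metric.closedBall z η := Metric.mem_closedBall_self hη.le
  have hh : ∀ y ∈ Metric.closedBall z η, ContDiffAt ℝ (⊤ : ℕ∞) (f - g) y := fun y hy =>
    (hf y hy).sub (hg y hy)
  have hsub : ∀ (l : ℕ) (y : P2), y ∈ Metric.closedBall z η →
      iteratedFDeriv ℝ l (f - g) y = iteratedFDeriv ℝ l f y - iteratedFDeriv ℝ l g y :=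
    fun l y hy => iteratedFDeriv_sub_apply
      ((hf y hy).of_le (by exact_mod_cast le_top)) ((hg y hy).of_le (by exact_mod_cast le_top))
  have hB : ∀ y ∈ Metric.closedBall z η, ‖iteratedFDeriv ℝ N (f - g) y‖ ≤ 2 * C' := fun y hy => by
    rw [hsub N y hy]
    refine (norm_sub_le _ _).trans ?_
    linarith [hfb y hy N le_rfl, hgb y hy N le_rfl]
  have h0 : ∀ l < N, ‖iteratedFDeriv ℝ l (f - g) z‖ ≤ 2 ^ N * ε := by
    intro l hl
    refine (norm_le_coord _ hε.le fun b => ?_).trans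
      (mul_le_mul_of_nonneg_right (pow_le_pow_right₀ one_le_two hl.le) hε.le)
    rw [hsub l z hz, sub_apply]
    have hbd : ∀ h : P2 → ℝ, ‖iteratedFDeriv ℝ l h z‖ ≤ C' →
        |iteratedFDeriv ℝ l h z fun m => vec (b m)| ≤ L * ε := fun h hh' => by
      have h1 := (iteratedFDeriv ℝ l h z).le_opNorm fun m => vec (b m)
      have h2 : ∏ m, ‖vec (b m)‖ = 1 := Finset.prod_eq_one fun m _ => by
        cases b m <;> simp [vec, Prod.norm_def]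
      rw [h2, mul_one, Real.norm_eq_abs] at h1
      linarith
    exact code_close hε (hbd f (hfb z hz l hl.le)) (hbd g (hgb z hz l hl.le)) (hkey ⟨l, hl⟩ b)
  have hiter := iter_le hη hη1 (by positivity) hh hB h0
  have hsmall : ∀ m : ℕ, N - 1 ≤ m → m ≤ N →
      (m : ℝ) * (2 ^ N * ε) + η ^ m * (2 * C') ≤ δ := by
    intro m h1 h2
    have e1 : (m : ℝ) * (2 ^ N * ε) ≤ δ / 2 := by
      have : (N : ℝ) ≠ 0 := by exact_mod_cast (by omega : N ≠ 0)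
      calc (m : ℝ) * (2 ^ N * ε) ≤ (N : ℝ) * (2 ^ N * ε) := by gcongr
        _ = δ / 2 := by rw [hεd]; field_simp
    have e2 : η ^ m * (2 * C') ≤ δ / 2 := by
      calc η ^ m * (2 * C') ≤ δ / (4 * C') * (2 * C') :=
            mul_le_mul_of_nonneg_right ((pow_le_pow_of_le_one hη.le hη1 h1).trans hηN) (by linarith)
        _ = δ / 2 := by field_simp; ring
    linarith
  have hv := (hiter N 0 (by omega) x hx).trans (hsmall N (by omega) le_rfl)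
  have hd := (hiter (N - 1) 1 (by omega) x hx).trans (hsmall (N - 1) le_rfl (by omega))
  rw [norm_iteratedFDeriv_zero, Real.norm_eq_abs] at hv
  rw [norm_iteratedFDeriv_one] at hd
  have hfd : fderiv ℝ (f - g) x = fderiv ℝ f x - fderiv ℝ g x :=
    fderiv_sub ((hf x hx).differentiableAt (by simp)) ((hg x hx).differentiableAt (by simp))
  have happ : ∀ e : P2, ‖e‖ = 1 → |fderiv ℝ f x e - fderiv ℝ g x e| ≤ δ := fun e he => by
    have := (fderiv ℝ (f - g) x).le_opNorm e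
    rw [he, mul_one, Real.norm_eq_abs, hfd, sub_apply] at this
    exact this.trans (hfd ▸ hd)
  exact ⟨hv, happ _ (by simp [Prod.norm_def]), happ _ (by simp [Prod.norm_def])⟩

/-- The pigeonhole with abstract parameters. -/
lemma pigeon {r r' s s' C' c₁ u δ p : ℝ} {N : ℕ} (hs : 0 < s) (hs' : 0 < s') (hN : 2 ≤ N)
    (hc₁ : 0 < c₁) (hc1 : c₁ ≤ 1) (hcs : 16 * c₁ * (s' + 2) ≤ s - r)
    (hcs' : 16 * c₁ * (s' + 2) ≤ r' - s') (hC : 0 < C') (hcC : c₁ ≤ 1 / (4 * C'))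
    (hu : 0 < u) (hu1 : u ≤ 1) (huN : u ^ (N - 1) = δ) (hp : 0 < p) (hδ : 0 < δ) (hδ1 : δ < 1)
    {ι : Type} [Fintype ι] (f : ι → P2 → ℝ)
    (hf : ∀ i, ContDiffOn ℝ (⊤ : ℕ∞) (f i) (interior (Ann r r')))
    (hb : ∀ i, ∀ x ∈ interior (Ann r r'), ∀ k : ℕ, k ≤ N → ‖iteratedFDeriv ℝ k (f i) x‖ ≤ C')
    (hcard : Real.exp ((2 * ((s' + 2) / c₁) + 5) ^ 2 *
        (Fintype.card ((j : Fin N) × (Fin (j : ℕ) → Bool)) : ℕ) *
        ((2 * (C' / (1 / (2 * N * 2 ^ N))) + 5) ^ p / p) * ((u ^ 2)⁻¹ * δ ^ (-p))) <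
      (Fintype.card ι : ℝ)) :
    ∃ i k, i ≠ k ∧ ∀ x ∈ Ann s s',
      |f i x - f k x| ≤ δ ∧ |d1 (f i) x - d1 (f k) x| ≤ δ ∧ |d2 (f i) x - d2 (f k) x| ≤ δ := by
  have hN0 : (0 : ℝ) < N := by exact_mod_cast (by omega : 0 < N)
  have h := (count (A' := s' + 2) (C' := C') (c₁ := c₁) (c₂ := 1 / (2 * N * 2 ^ N))
    (Fintype.card ((j : Fin N) × (Fin (j : ℕ) → Bool))) hp hδ hδ1 hu hu1 hc₁ (by positivity)
    (by linarith) hC).trans_lt hcard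
  rw [← Nat.cast_pow, Nat.cast_lt] at h
  obtain ⟨η, hηd⟩ : ∃ η, η = c₁ * u := ⟨_, rfl⟩
  rw [← hηd] at h
  have hη : 0 < η := hηd ▸ mul_pos hc₁ hu
  have hηc : η ≤ c₁ := hηd ▸ mul_le_of_le_one_right hc₁.le hu1
  have hMη : s' + 2 ≤ (⌈(s' + 2) / η⌉₊ : ℕ) * η := (div_le_iff₀ hη).1 (Nat.le_ceil _)
  have hLε : C' ≤ (⌈C' / (1 / (2 * N * 2 ^ N) * δ)⌉₊ : ℕ) * (1 / (2 * N * 2 ^ N) * δ) :=
    (div_le_iff₀ (by positivity)).1 (Nat.le_ceil _)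
  generalize ⌈(s' + 2) / η⌉₊ = M at h hMη
  generalize ⌈C' / (1 / (2 * N * 2 ^ N) * δ)⌉₊ = L at h hLε
  let key : ι → (Fin (2 * M + 1) × Fin (2 * M + 1)) →
      ((j : Fin N) × (Fin (j : ℕ) → Bool)) → Fin (2 * L + 1) := fun i a t =>
    code (1 / (2 * N * 2 ^ N) * δ) L
      (iteratedFDeriv ℝ (t.1 : ℕ) (f i) (node η M a) fun l => vec (t.2 l))
  have hkeys : (Fintype.card ((Fin (2 * M + 1) × Fin (2 * M + 1)) →
      ((j : Fin N) × (Fin (j : ℕ) → Bool)) → Fin (2 * L + 1))) < Fintype.card ι := by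
    simp only [Fintype.card_fun, Fintype.card_fin, Fintype.card_prod, ← pow_mul]
    exact h
  obtain ⟨i, k, hne, heq⟩ := Fintype.exists_ne_map_eq_of_card_lt key hkeys
  refine ⟨i, k, hne, fun x hx => ?_⟩
  have hx2 : x.1 ^ 2 + x.2 ^ 2 ≤ s' := hx.2
  obtain ⟨a₁, ha₁⟩ := exists_idx (M := M) (v := x.1) hη (abs_le.2
    ⟨by nlinarith [sq_nonneg (x.1 + 1), sq_nonneg x.2],
     by nlinarith [sq_nonneg (x.1 - 1), sq_nonneg x.2]⟩)
  obtain ⟨a₂, ha₂⟩ := exists_idx (M := M) (v := x.2) hη (abs_le.2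
    ⟨by nlinarith [sq_nonneg (x.2 + 1), sq_nonneg x.1],
     by nlinarith [sq_nonneg (x.2 - 1), sq_nonneg x.1]⟩)
  have hη1 : η ≤ 1 := hηc.trans hc1
  have h16 : 16 * η * (s' + 2) ≤ 16 * c₁ * (s' + 2) := by gcongr
  have hball : ∀ y ∈ Metric.closedBall (node η M (a₁, a₂)) η, y ∈ interior (Ann r r') := fun y hy =>
    ball_mem hx hη hη1 hs (h16.trans hcs) (h16.trans hcs') ⟨ha₁, ha₂⟩ hy
  have hxz : x ∈ Metric.closedBall (node η M (a₁, a₂)) η := by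
    rw [Metric.mem_closedBall, Prod.dist_eq, max_le_iff]
    exact ⟨ha₁, ha₂⟩
  have hηN : η ^ (N - 1) ≤ δ / (4 * C') := by
    rw [hηd, mul_pow, huN]
    refine (mul_le_mul_of_nonneg_right ((pow_le_of_le_one hc₁.le hc1 (by omega)).trans hcC)
      hδ.le).trans_eq ?_
    ring
  exact close hN hη hη1 hδ hC hηN hLε
    (fun y hy => (hf i).contDiffAt (isOpen_interior.mem_nhds (hball y hy)))
    (fun y hy => (hf k).contDiffAt (isOpen_interior.mem_nhds (hball y hy)))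
    (fun y hy l hl => hb i y (hball y hy) l hl)
    (fun y hy l hl => hb k y (hball y hy) l hl)
    (fun l b => congrFun (congrFun heq (a₁, a₂)) ⟨l, b⟩) hxz

/-- Few keys. -/
theorem fewKeys : FewKeys := by
  intro r s s' r' C N hr hrs hss hsr hN
  have hs0 : 0 < s := hr.trans hrs
  have hs'0 : 0 < s' := hs0.trans hss
  have hden : 0 < 16 * (s' + 2) := by linarith
  have hC' : 0 < max C 0 + 1 := by linarith [le_max_right C (0 : ℝ)]
  have hNR : (8 : ℝ) ≤ N := by exact_mod_cast hN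
  have hN1 : 0 < (N : ℝ) - 1 := by linarith
  have hp : 0 < (4 : ℝ) / N - 2 / ((N : ℝ) - 1) := by
    rw [sub_pos, div_lt_div_iff₀ hN1 (by linarith)]
    linarith
  obtain ⟨c₁, hc₁, h1, h2, h3, h4⟩ : ∃ c₁ : ℝ, 0 < c₁ ∧ c₁ ≤ 1 ∧ c₁ ≤ (s - r) / (16 * (s' + 2)) ∧
      c₁ ≤ (r' - s') / (16 * (s' + 2)) ∧ c₁ ≤ 1 / (4 * (max C 0 + 1)) :=
    ⟨min (min 1 ((s - r) / (16 * (s' + 2)))) (min ((r' - s') / (16 * (s' + 2)))
        (1 / (4 * (max C 0 + 1)))),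
      lt_min (lt_min one_pos (div_pos (by linarith) hden))
        (lt_min (div_pos (by linarith) hden) (by positivity)),
      (min_le_left _ _).trans (min_le_left _ _), (min_le_left _ _).trans (min_le_right _ _),
      (min_le_right _ _).trans (min_le_left _ _), (min_le_right _ _).trans (min_le_right _ _)⟩
  refine ⟨(2 * ((s' + 2) / c₁) + 5) ^ 2 *
      (Fintype.card ((j : Fin N) × (Fin (j : ℕ) → Bool)) : ℕ) *
      ((2 * ((max C 0 + 1) / (1 / (2 * N * 2 ^ N))) + 5) ^ ((4 : ℝ) / N - 2 / ((N : ℝ) - 1)) /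
        ((4 : ℝ) / N - 2 / ((N : ℝ) - 1))), fun δ hδ hδ1 ι _ f hf hb hcard => pigeon hs0 hs'0 (by omega) hc₁ h1
    (by rw [le_div_iff₀ hden] at h2; linarith) (by rw [le_div_iff₀ hden] at h3; linarith) hC' h4
    (Real.rpow_pos_of_pos hδ ((1 : ℝ) / ((N : ℝ) - 1)))
    (Real.rpow_le_one hδ.le hδ1.le (by positivity)) ?_ hp hδ hδ1 f hf
    (fun i x hx k hk => (hb i x hx k hk).trans (by linarith [le_max_left C (0 : ℝ)])) ?_⟩
  · rw [← Real.rpow_natCast, ← Real.rpow_mul hδ.le, Nat.cast_sub (by omega), Nat.cast_one,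
      one_div, inv_mul_cancel₀ hN1.ne', Real.rpow_one]
  · convert hcard using 3
    rw [← Real.rpow_natCast (δ ^ _) 2, ← Real.rpow_mul hδ.le, ← Real.rpow_neg hδ.le,
      ← Real.rpow_add hδ]
    congr 1
    push_cast
    ring

end Vale.Agent.P229.Keys
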